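import Vale.Agent.P269.G2.BSpec

/-!
# [G2-D] descendants, row DH
-/

namespace Vale.Agent.P269.G2.H302

open Vale.Agent.P269.CI

variable {X : CompleteIntersection} {n : ℕ} (E : Fam X n) {F : ℕ → ℕ → List (Ins X) → ℂ}

lemma pd_comm {K : Type*} [CommRing K] (i j : Fin n) (f : MvPowerSeries (Fin n) K) :
    MvPowerSeries.pderiv K i (MvPowerSeries.pderiv K j f) =
      MvPowerSeries.pderiv K j (MvPowerSeries.pderiv K i f) := by
  ext d
  rw [MvPowerSeries.coeff_pderiv, MvPowerSeries.coeff_pderiv, MvPowerSeries.coeff_pderiv,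
    MvPowerSeries.coeff_pderiv, add_right_comm]
  rcases eq_or_ne i j with rfl | h
  · ring
  · simp only [Finsupp.add_apply, Finsupp.single_apply, if_neg h, if_neg h.symm, add_zero]
    ring

lemma act_apply (a : OB X n) (x : Ix X → RB n) (b : Ix X) :
    actB X n a x b = ∑ c, a b c * x c := by
  simp [actB, Matrix.mulVec, dotProduct]

lemma act_zero (a : OB X n) : actB X n a 0 = 0 := map_zero _

lemma dB_one (i : Fin n) : dB i (1 : OB X n) = 0 := by
  refine Matrix.ext fun b c => ?_
  change MvPowerSeries.pderiv (PowerSeries ℂ) i ((1 : Matrix _ _ (RB n)) b c) = 0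
  rw [Matrix.one_apply]
  split_ifs
  · exact Derivation.map_one_eq_zero _
  · exact map_zero _

lemma dB_sub (i : Fin n) (a b : OB X n) : dB i (a - b) = dB i a - dB i b := by
  refine Matrix.ext fun u v => ?_
  exact map_sub (MvPowerSeries.pderiv (PowerSeries ℂ) i) (a u v) (b u v)

lemma SB_zero (F : ℕ → ℕ → List (Ins X) → ℂ) : SB E F 0 = 1 := rfl

lemma pderiv_SB (hF : IsGW X F) (he : Even X.dim) (i : Fin n) (k : ℕ) (b c : Ix X) :
    MvPowerSeries.pderiv (PowerSeries ℂ) i (SB E F (k + 1) b c) =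
      ∑ a, CB E F (wB E F i 0) b a * SB E F k a c := by
  have h := congrArg (fun a : OB X n => a b c) (dB_SB E hF he i k)
  exact h

lemma pderiv_SB0 (F : ℕ → ℕ → List (Ins X) → ℂ) (i : Fin n) (b c : Ix X) :
    MvPowerSeries.pderiv (PowerSeries ℂ) i (SB E F 0 b c) = 0 := by
  rw [SB_zero]
  have h := congrArg (fun a : OB X n => a b c) (dB_one (X := X) i)
  exact h

/-- **[DH]** -/
theorem bD_w (hF : IsGW X F) (he : Even X.dim) (i j : Fin n) (l : ℕ) (b : Ix X) :
    MvPowerSeries.pderiv (PowerSeries ℂ) i (wB E F j l b) =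
      actB X n (CB E F (wB E F i 0)) (wB E F j (l + 1)) b := by
  rw [act_apply]
  rcases lt_trichotomy l (E.e j).2 with h | h | h
  · obtain ⟨m, hm⟩ : ∃ m, (E.e j).2 = l + 1 + m := ⟨(E.e j).2 - (l + 1), by omega⟩
    have e1 : ∀ c, wB E F j l c = SB E F (m + 1) c (E.e j).1 := fun c => by
      unfold wB
      rw [if_pos h.le, show (E.e j).2 - l = m + 1 by omega]
    have e2 : ∀ c, wB E F j (l + 1) c = SB E F m c (E.e j).1 := fun c => by
      unfold wB
      rw [if_pos (by omega), show (E.e j).2 - (l + 1) = m by omega]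
    simp only [e1, e2]
    exact pderiv_SB E hF he i m b _
  · have e1 : wB E F j l b = SB E F 0 b (E.e j).1 := by
      unfold wB
      rw [if_pos h.le, show (E.e j).2 - l = 0 by omega]
    have e2 : ∀ c, wB E F j (l + 1) c = 0 := fun c => by
      unfold wB
      rw [if_neg (by omega)]
    rw [e1, pderiv_SB0]
    simp [e2]
  · have e1 : wB E F j l b = 0 := by
      unfold wB
      rw [if_neg (by omega)]
    have e2 : ∀ c, wB E F j (l + 1) c = 0 := fun c => by
      unfold wB
      rw [if_neg (by omega)]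
    rw [e1, map_zero]
    simp [e2]

/-- **[DH]** -/
theorem bD_g (hF : IsGW X F) (he : Even X.dim) (i : Fin n) (j : ℕ) (b : Ix X) :
    MvPowerSeries.pderiv (PowerSeries ℂ) i (gB E F (j + 1) b) =
      actB X n (CB E F (wB E F i 0)) (gB E F (j + 2)) b - wB E F i (j + 1) b := by
  have e0 : MvPowerSeries.pderiv (PowerSeries ℂ) i
      (if j + 1 ≤ 1 then SB E F (1 - (j + 1)) b (one X) else 0) = 0 := by
    split_ifs with h
    · rw [show 1 - (j + 1) = 0 by omega]
      exact pderiv_SB0 E F i b (one X)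
    · exact map_zero _
  have e1 : MvPowerSeries.pderiv (PowerSeries ℂ) i
      (∑ i', (MvPowerSeries.X i' : RB n) * wB E F i' (j + 1) b) =
      wB E F i (j + 1) b + ∑ i', (MvPowerSeries.X i' : RB n) *
        actB X n (CB E F (wB E F i 0)) (wB E F i' (j + 2)) b := by
    rw [map_sum]
    have h2 : ∀ i', MvPowerSeries.pderiv (PowerSeries ℂ) i
        ((MvPowerSeries.X i' : RB n) * wB E F i' (j + 1) b) =
        (if i' = i then wB E F i' (j + 1) b else 0) + (MvPowerSeries.X i' : RB n) *
        actB X n (CB E F (wB E F i 0)) (wB E F i' (j + 2)) b := by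
      intro i'
      rw [Derivation.leibniz, smul_eq_mul, smul_eq_mul, bD_w E hF he i i' (j + 1) b]
      rcases eq_or_ne i' i with h | h
      · subst h
        rw [MvPowerSeries.pderiv_X_self, if_pos rfl]
        ring
      · rw [MvPowerSeries.pderiv_X_of_ne h, if_neg h]
        ring
    rw [Finset.sum_congr rfl fun i' _ => h2 i', Finset.sum_add_distrib]
    rw [Finset.sum_ite_eq' Finset.univ i, if_pos (Finset.mem_univ i)]
  have e2 : actB X n (CB E F (wB E F i 0)) (gB E F (j + 2)) b =
      - ∑ i', (MvPowerSeries.X i' : RB n) *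
        actB X n (CB E F (wB E F i 0)) (wB E F i' (j + 2)) b := by
    have h3 : ∀ c, gB E F (j + 2) c = - ∑ i', (MvPowerSeries.X i' : RB n) *
        wB E F i' (j + 2) c := fun c => by
      unfold gB
      rw [if_neg (by omega), zero_sub]
    rw [act_apply]
    have h4 : ∀ c, CB E F (wB E F i 0) b c * gB E F (j + 2) c =
        - ∑ i', (MvPowerSeries.X i' : RB n) *
          (CB E F (wB E F i 0) b c * wB E F i' (j + 2) c) := fun c => by
      rw [h3, mul_neg, Finset.mul_sum]
      exact congrArg _ (Finset.sum_congr rfl fun i' _ => mul_left_comm _ _ _)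
    rw [Finset.sum_congr rfl fun c _ => h4 c, Finset.sum_neg_distrib, Finset.sum_comm]
    refine congrArg _ (Finset.sum_congr rfl fun i' _ => ?_)
    rw [act_apply, Finset.mul_sum]
  change MvPowerSeries.pderiv (PowerSeries ℂ) i
      ((if j + 1 ≤ 1 then SB E F (1 - (j + 1)) b (one X) else 0) -
        ∑ i', (MvPowerSeries.X i' : RB n) * wB E F i' (j + 1) b) = _
  rw [map_sub, e0, e1, e2]
  ring

lemma dB_SB1 (hF : IsGW X F) (he : Even X.dim) (i : Fin n) :
    dB i (SB E F 1) = CB E F (wB E F i 0) := by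
  have h := dB_SB E hF he i 0
  rw [SB_zero, mul_one] at h
  exact h

/-- **[DH]** -/
theorem bDO_U (hF : IsGW X F) (he : Even X.dim) (i : Fin n) : dB i (UB E F) =
    CB E F (wB E F i 0) + CB E F (wB E F i 0) * muB X n -
      muB X n * CB E F (wB E F i 0) := by
  unfold UB
  rw [bDO_add, dB_sub, bDO_add, bDO_mul, bDO_mul, bDO_mu, bDO_R, dB_SB1 E hF he i]
  simp

lemma dB_comm (i j : Fin n) (a : OB X n) : dB i (dB j a) = dB j (dB i a) := by
  refine Matrix.ext fun u v => ?_
  exact pd_comm i j (a u v)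

/-- **[DH]** -/
theorem bC_symm (hF : IsGW X F) (he : Even X.dim) (i j : Fin n) :
    dB i (CB E F (wB E F j 0)) = dB j (CB E F (wB E F i 0)) := by
  rw [← dB_SB1 E hF he j, ← dB_SB1 E hF he i, dB_comm]

/-- **[DH]** -/
theorem bG_symm (hF : IsGW X F) (he : Even X.dim) (h1 : Trr1 F) (i j : Fin n) :
    MvPowerSeries.pderiv (PowerSeries ℂ) i (GB E F (wB E F j 0) +
      (1 / 24 : ℚ) • strB X n (CB E F (wB E F j 1))) =
    MvPowerSeries.pderiv (PowerSeries ℂ) j (GB E F (wB E F i 0) +
      (1 / 24 : ℚ) • strB X n (CB E F (wB E F i 1))) := by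
  rw [← cor_one_big E hF he h1 j, ← cor_one_big E hF he h1 i, ← pderiv_sr_cor E hF he 1 [] j,
    ← pderiv_sr_cor E hF he 1 [] i]
  exact pd_comm i j _

end Vale.Agent.P269.G2.H302
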