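import Vale.Agent.P269.G2.Model

/-!
# [M2], [M3] elementary rules and symmetry of the derivatives of the product
-/

namespace Vale.Agent.P269.G2.H302.M23

open Vale.Agent.P269.CI Vale.Agent.P269.G2

variable {X : CompleteIntersection} {F : ℕ → ℕ → List (Ins X) → ℂ}

variable (hF : IsGW X F) (he : Even X.dim)

/-- partial derivatives commute -/
theorem pderiv_comm {n : ℕ} {K : Type*} [CommRing K] (i j : Fin n)
    (f : MvPowerSeries (Fin n) K) :
    MvPowerSeries.pderiv K i (MvPowerSeries.pderiv K j f) =
      MvPowerSeries.pderiv K j (MvPowerSeries.pderiv K i f) := by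
  by_cases hij : i = j
  · rw [hij]
  ext m
  rw [MvPowerSeries.coeff_pderiv, MvPowerSeries.coeff_pderiv, MvPowerSeries.coeff_pderiv,
    MvPowerSeries.coeff_pderiv, add_right_comm m (Finsupp.single i 1) (Finsupp.single j 1)]
  have h1 : (m + Finsupp.single i 1 : Fin n →₀ ℕ) j = m j := by
    rw [Finsupp.add_apply, Finsupp.single_eq_of_ne (Ne.symm hij), add_zero]
  have h2 : (m + Finsupp.single j 1 : Fin n →₀ ℕ) i = m i := by
    rw [Finsupp.add_apply, Finsupp.single_eq_of_ne hij, add_zero]
  rw [h1, h2]
  ring

theorem pderiv_nat {n : ℕ} {K : Type*} [CommRing K] (i : Fin n) (m : ℕ) :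
    MvPowerSeries.pderiv K i ((m : ℕ) : MvPowerSeries (Fin n) K) = 0 := by
  have h : ((m : ℕ) : MvPowerSeries (Fin n) K) = MvPowerSeries.C (m : K) := by simp
  rw [h, MvPowerSeries.pderiv_C]

theorem pderiv_int {n : ℕ} {K : Type*} [CommRing K] (i : Fin n) (m : ℤ) :
    MvPowerSeries.pderiv K i ((m : ℤ) : MvPowerSeries (Fin n) K) = 0 := by
  have h : ((m : ℤ) : MvPowerSeries (Fin n) K) = MvPowerSeries.C (m : K) := by simp
  rw [h, MvPowerSeries.pderiv_C]

theorem pd_add (b : Ix X) (f g : RM X) : pd b (f + g) = pd b f + pd b g := map_add _ f g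

theorem pd_zero (b : Ix X) : pd b (0 : RM X) = 0 := map_zero _

theorem pd_one (b : Ix X) : pd b (1 : RM X) = 0 := by
  unfold pd
  rw [MvPowerSeries.pderiv_one]

theorem pd_mul (b : Ix X) (f g : RM X) : pd b (f * g) = f * pd b g + g * pd b f := by
  unfold pd
  rw [Derivation.leibniz, smul_eq_mul, smul_eq_mul]

theorem pd_sum {ι : Type*} (b : Ix X) (s : Finset ι) (f : ι → RM X) :
    pd b (∑ i ∈ s, f i) = ∑ i ∈ s, pd b (f i) := map_sum _ f s

theorem pd_comm (a b : Ix X) (f : RM X) : pd a (pd b f) = pd b (pd a f) :=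
  pderiv_comm _ _ f

theorem pd_nat (b : Ix X) (m : ℕ) : pd b ((m : ℕ) : RM X) = 0 := pderiv_nat _ m

theorem pd_int (b : Ix X) (m : ℤ) : pd b ((m : ℤ) : RM X) = 0 := pderiv_int _ m

theorem i0_inj {a b : Ix X} (h : (E0 X).i0 a = (E0 X).i0 b) : a = b :=
  (Fintype.equivFin (Ix X)).injective h

theorem pd_X (a b : Ix X) : pd a (MvPowerSeries.X ((E0 X).i0 b) : RM X) =
    if a = b then 1 else 0 := by
  unfold pd
  split_ifs with h
  · rw [h, MvPowerSeries.pderiv_X_self]
  · exact MvPowerSeries.pderiv_X_of_ne fun h2 => h (i0_inj h2).symm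

/-- **[M2]** elementary rules -/
theorem der_add_left (x y : AM hF he) (f : RM X) :
    der hF he (x + y) f = der hF he x f + der hF he y f := by
  change ∑ i, (x i + y i) * _ = ∑ i, x i * _ + ∑ i, y i * _
  rw [← Finset.sum_add_distrib]
  exact Finset.sum_congr rfl fun i _ => by ring

/-- **[M2]** -/
theorem der_smul_left (g : RM X) (x : AM hF he) (f : RM X) :
    der hF he (g • x) f = g * der hF he x f := by
  change ∑ i, (g * x i) * _ = g * ∑ i, x i * _
  rw [Finset.mul_sum]
  exact Finset.sum_congr rfl fun i _ => by ring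

/-- **[M2]** -/
theorem der_add (x : AM hF he) (f g : RM X) :
    der hF he x (f + g) = der hF he x f + der hF he x g := by
  change ∑ i, x i * _ = ∑ i, x i * _ + ∑ i, x i * _
  rw [← Finset.sum_add_distrib]
  exact Finset.sum_congr rfl fun i _ => by rw [pd_add]; ring

/-- **[M2]** -/
theorem der_mul (x : AM hF he) (f g : RM X) :
    der hF he x (f * g) = der hF he x f * g + f * der hF he x g := by
  change ∑ i, x i * _ = (∑ i, x i * _) * g + f * ∑ i, x i * _
  rw [Finset.sum_mul, Finset.mul_sum, ← Finset.sum_add_distrib]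
  exact Finset.sum_congr rfl fun i _ => by
    rw [pd_mul]; ring

/-- **[M2]** -/
theorem der_rat (x : AM hF he) (c : ℚ) (f : RM X) :
    der hF he x (c • f) = c • der hF he x f := by
  change ∑ i, x i * _ = c • ∑ i, x i * _
  rw [Finset.smul_sum]
  exact Finset.sum_congr rfl fun i _ => by
    unfold pd
    rw [map_rat_smul, mul_smul_comm]

/-- **[M2]** -/
theorem nab_add_left (x y z : AM hF he) :
    nab hF he (x + y) z = nab hF he x z + nab hF he y z :=
  funext fun _ => der_add_left hF he x y _

/-- **[M2]** -/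
theorem nab_smul_left (g : RM X) (x z : AM hF he) :
    nab hF he (g • x) z = g • nab hF he x z :=
  funext fun _ => der_smul_left hF he g x _

/-- **[M2]** -/
theorem nab_add (x y z : AM hF he) : nab hF he x (y + z) = nab hF he x y + nab hF he x z :=
  funext fun k => der_add hF he x (y k) (z k)

/-- **[M2]** -/
theorem nab_smul (x : AM hF he) (g : RM X) (z : AM hF he) :
    nab hF he x (g • z) = der hF he x g • z + g • nab hF he x z :=
  funext fun k => der_mul hF he x g (z k)

/-- **[M2]** -/
theorem nab_one (x : AM hF he) : nab hF he x 1 = 0 := by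
  funext k
  change ∑ i, x i * pd i (if k = one X then (1 : RM X) else 0) = 0
  refine Finset.sum_eq_zero fun i _ => ?_
  split_ifs
  · rw [pd_one, mul_zero]
  · rw [pd_zero, mul_zero]

/-- **[M2]** -/
theorem der_comm (x y : AM hF he) (f : RM X) :
    der hF he x (der hF he y f) - der hF he y (der hF he x f) =
      der hF he (nab hF he x y - nab hF he y x) f := by
  have key : ∀ a b : AM hF he, der hF he a (der hF he b f) = der hF he (nab hF he a b) f +
      ∑ i, ∑ j, a i * b j * pd i (pd j f) := by
    intro a b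
    change ∑ i, a i * pd i (∑ j, b j * pd j f) =
      ∑ j, (∑ i, a i * pd i (b j)) * pd j f + _
    have e1 : ∑ j, (∑ i, a i * pd i (b j)) * pd j f =
        ∑ i, ∑ j, a i * pd i (b j) * pd j f := by
      rw [Finset.sum_comm]
      exact Finset.sum_congr rfl fun j _ => by rw [Finset.sum_mul]
    rw [e1, ← Finset.sum_add_distrib]
    refine Finset.sum_congr rfl fun i _ => ?_
    rw [pd_sum, Finset.mul_sum, ← Finset.sum_add_distrib]
    refine Finset.sum_congr rfl fun j _ => ?_
    rw [pd_mul]
    ring
  have hsym : ∑ i, ∑ j, x i * y j * pd i (pd j f) =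
      ∑ i, ∑ j, y i * x j * pd i (pd j f) := by
    rw [Finset.sum_comm]
    refine Finset.sum_congr rfl fun i _ => Finset.sum_congr rfl fun j _ => ?_
    rw [pd_comm j i]
    ring
  have hsub : der hF he (nab hF he x y - nab hF he y x) f =
      der hF he (nab hF he x y) f - der hF he (nab hF he y x) f := by
    have h := der_add_left hF he (nab hF he x y - nab hF he y x) (nab hF he y x) f
    rw [sub_add_cancel] at h
    rw [h]
    ring
  rw [key x y, key y x, hsym, hsub]
  ring

/-- **[M2]** -/
theorem d_one : dd hF he 1 = 0 := by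
  funext k
  change ((hp X k : ℕ) : RM X) * (if k = one X then (1 : RM X) else 0) = 0
  split_ifs with h
  · rw [h]
    have : hp X (one X) = 0 := rfl
    rw [this, Nat.cast_zero, zero_mul]
  · rw [mul_zero]

/-- **[M2]** -/
theorem nab_d (x y : AM hF he) : nab hF he x (dd hF he y) = dd hF he (nab hF he x y) := by
  funext k
  change der hF he x (((hp X k : ℕ) : RM X) * y k) = ((hp X k : ℕ) : RM X) * der hF he x (y k)
  rw [der_mul]
  have h : der hF he x ((hp X k : ℕ) : RM X) = 0 :=
    Finset.sum_eq_zero fun i _ => by rw [pd_nat, mul_zero]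
  rw [h, zero_mul, zero_add]

/-- **[M2]** -/
theorem nab_E (x : AM hF he) : nab hF he x (EM hF he) = x - dd hF he x := by
  funext k
  change der hF he x ((1 - ((hp X k : ℕ) : RM X)) * MvPowerSeries.X ((E0 X).i0 k) +
    if k = hcls X then ((index X : ℤ) : RM X) else 0) = x k - ((hp X k : ℕ) : RM X) * x k
  rw [der_add, der_mul]
  have h2 : der hF he x (if k = hcls X then ((index X : ℤ) : RM X) else 0) = 0 := by
    refine Finset.sum_eq_zero fun i _ => ?_
    split_ifs
    · rw [pd_int, mul_zero]
    · rw [pd_zero, mul_zero]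
  have h3 : der hF he x (1 - ((hp X k : ℕ) : RM X)) = 0 := by
    refine Finset.sum_eq_zero fun i _ => ?_
    have : pd i (1 - ((hp X k : ℕ) : RM X)) = 0 := by
      unfold pd
      rw [map_sub, MvPowerSeries.pderiv_one, pderiv_nat, sub_zero]
    rw [this, mul_zero]
  have h4 : der hF he x (MvPowerSeries.X ((E0 X).i0 k)) = x k := by
    change ∑ i, x i * pd i (MvPowerSeries.X ((E0 X).i0 k)) = x k
    rw [Finset.sum_eq_single k]
    · rw [pd_X, if_pos rfl, mul_one]
    · intro b _ hb
      rw [pd_X, if_neg hb, mul_zero]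
    · intro h
      exact absurd (Finset.mem_univ k) h
  rw [h2, h3, h4]
  ring

/-! ### symmetry -/

theorem par_false (he : Even X.dim) (a : Ix X) : par X a = false := by
  rcases a with j | v
  · rfl
  · have := Nat.even_iff.1 he
    simp [par, this]

theorem pd_cor (hF : IsGW X F) (he : Even X.dim) (g : ℕ) (P : List (Ins X)) (b : Ix X) :
    pd b (sr (E0 X) (cor F g P)) = sr (E0 X) (cor F g ((b, 0) :: P)) := by
  have h := pderiv_sr_cor (E0 X) hF he g P ((E0 X).i0 b)
  rw [(E0 X).e_i0] at h
  exact h

theorem cor_swap (hF : IsGW X F) (he : Even X.dim) (g d : ℕ) (x y : Ins X) (P L : List (Ins X)) :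
    cor F g (x :: y :: P) d L = cor F g (y :: x :: P) d L := by
  have h := hF.symm g d [] (P ++ L) x y
  rw [par_false he, par_false he] at h
  have hs : sgn false false = 1 := rfl
  rw [hs, one_mul] at h
  exact h

/-- `∂_m c_{ijk} = ∂_i c_{mjk}` -/
theorem pd_qc (hF : IsGW X F) (he : Even X.dim) (m i j k : Ix X) :
    pd m (qc F i j k) = pd i (qc F m j k) := by
  have hswap : ∀ l, sr (E0 X) (cor F 0 [(m, 0), (i, 0), (j, 0), (l, 0)]) =
      sr (E0 X) (cor F 0 [(i, 0), (m, 0), (j, 0), (l, 0)]) := by
    intro l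
    congr 1
    funext d L
    exact cor_swap hF he 0 d _ _ _ _
  unfold qc
  rw [pd_sum, pd_sum]
  refine Finset.sum_congr rfl fun l _ => ?_
  have hs : ∀ (b : Ix X) (c : ℂ) (f : RM X), pd b (c • f) = c • pd b f := fun b c f => by
    unfold pd
    rw [Derivation.map_smul_of_tower]
  rw [hs, hs, pd_cor hF he, pd_cor hF he, hswap]

theorem der_sum {ι : Type*} (s : Finset ι) (x : AM hF he) (f : ι → RM X) :
    der hF he x (∑ i ∈ s, f i) = ∑ i ∈ s, der hF he x (f i) := by
  change ∑ i, x i * _ = ∑ i ∈ s, ∑ j, x j * _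
  rw [Finset.sum_comm]
  exact Finset.sum_congr rfl fun i _ => by rw [pd_sum, Finset.mul_sum]

/-- the covariant derivative of the product in coordinates -/
theorem T_apply (x y z : AM hF he) (k : Ix X) :
    (nab hF he x (y * z) - nab hF he x y * z - y * nab hF he x z : AM hF he) k =
      ∑ i, ∑ j, y i * z j * der hF he x (qc F i j k) := by
  change der hF he x (∑ i, ∑ j, y i * z j * qc F i j k) -
    (∑ i, ∑ j, der hF he x (y i) * z j * qc F i j k) -
    (∑ i, ∑ j, y i * der hF he x (z j) * qc F i j k) = _
  rw [der_sum, ← Finset.sum_sub_distrib, ← Finset.sum_sub_distrib]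
  refine Finset.sum_congr rfl fun i _ => ?_
  rw [der_sum, ← Finset.sum_sub_distrib, ← Finset.sum_sub_distrib]
  refine Finset.sum_congr rfl fun j _ => ?_
  rw [der_mul, der_mul]
  ring

/-- **[M3]** -/
theorem c4_symm (x y z : AM hF he) : nab hF he x (y * z) - nab hF he x y * z -
    y * nab hF he x z = nab hF he y (x * z) - nab hF he y x * z - x * nab hF he y z := by
  funext k
  refine (T_apply hF he x y z k).trans (Eq.trans ?_ (T_apply hF he y x z k).symm)
  change ∑ i, ∑ j, y i * z j * ∑ l, x l * pd l (qc F i j k) =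
    ∑ l, ∑ j, x l * z j * ∑ i, y i * pd i (qc F l j k)
  simp only [Finset.mul_sum]
  calc ∑ i, ∑ j, ∑ l, y i * z j * (x l * pd l (qc F i j k))
      = ∑ i, ∑ l, ∑ j, y i * z j * (x l * pd l (qc F i j k)) :=
        Finset.sum_congr rfl fun i _ => Finset.sum_comm
    _ = ∑ l, ∑ i, ∑ j, y i * z j * (x l * pd l (qc F i j k)) :=
        Finset.sum_comm
    _ = ∑ l, ∑ j, ∑ i, y i * z j * (x l * pd l (qc F i j k)) :=
        Finset.sum_congr rfl fun l _ => Finset.sum_comm
    _ = _ := by
        refine Finset.sum_congr rfl fun l _ => Finset.sum_congr rfl fun j _ =>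
          Finset.sum_congr rfl fun i _ => ?_
        rw [pd_qc hF he l i j k]
        ring

/-- **[M3]** -/
theorem c5_symm (w x y z : AM hF he) :
    nab hF he w (nab hF he x (y * z) - nab hF he x y * z - y * nab hF he x z)
      - (nab hF he (nab hF he w x) (y * z) - nab hF he (nab hF he w x) y * z
        - y * nab hF he (nab hF he w x) z)
      - (nab hF he x (nab hF he w y * z) - nab hF he x (nab hF he w y) * z
        - nab hF he w y * nab hF he x z)
      - (nab hF he x (y * nab hF he w z) - nab hF he x y * nab hF he w z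
        - y * nab hF he x (nab hF he w z)) =
    nab hF he x (nab hF he w (y * z) - nab hF he w y * z - y * nab hF he w z)
      - (nab hF he (nab hF he x w) (y * z) - nab hF he (nab hF he x w) y * z
        - y * nab hF he (nab hF he x w) z)
      - (nab hF he w (nab hF he x y * z) - nab hF he w (nab hF he x y) * z
        - nab hF he x y * nab hF he w z)
      - (nab hF he w (y * nab hF he x z) - nab hF he w y * nab hF he x z
        - y * nab hF he w (nab hF he x z)) := by
  have key : ∀ w x : AM hF he, ∀ k,
      (nab hF he w (nab hF he x (y * z) - nab hF he x y * z - y * nab hF he x z)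
      - (nab hF he (nab hF he w x) (y * z) - nab hF he (nab hF he w x) y * z
        - y * nab hF he (nab hF he w x) z)
      - (nab hF he x (nab hF he w y * z) - nab hF he x (nab hF he w y) * z
        - nab hF he w y * nab hF he x z)
      - (nab hF he x (y * nab hF he w z) - nab hF he x y * nab hF he w z
        - y * nab hF he x (nab hF he w z)) : AM hF he) k =
      ∑ i, ∑ j, y i * z j * (der hF he w (der hF he x (qc F i j k)) -
        der hF he (nab hF he w x) (qc F i j k)) := by
    intro w x k
    have e1 : (nab hF he w (nab hF he x (y * z) - nab hF he x y * z -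
        y * nab hF he x z) : AM hF he) k = der hF he w
          (∑ i, ∑ j, y i * z j * der hF he x (qc F i j k)) := by
      change der hF he w ((nab hF he x (y * z) - nab hF he x y * z -
        y * nab hF he x z : AM hF he) k) = _
      rw [T_apply]
    have e2 := T_apply hF he (nab hF he w x) y z k
    have e3 := T_apply hF he x (nab hF he w y) z k
    have e4 := T_apply hF he x y (nab hF he w z) k
    refine (congrArg₂ (· - ·) (congrArg₂ (· - ·) (congrArg₂ (· - ·) e1 e2) e3) e4).trans ?_
    change der hF he w (∑ i, ∑ j, y i * z j * der hF he x (qc F i j k)) -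
      (∑ i, ∑ j, y i * z j * der hF he (nab hF he w x) (qc F i j k)) -
      (∑ i, ∑ j, der hF he w (y i) * z j * der hF he x (qc F i j k)) -
      (∑ i, ∑ j, y i * der hF he w (z j) * der hF he x (qc F i j k)) = _
    rw [der_sum, ← Finset.sum_sub_distrib, ← Finset.sum_sub_distrib, ← Finset.sum_sub_distrib]
    refine Finset.sum_congr rfl fun i _ => ?_
    rw [der_sum, ← Finset.sum_sub_distrib, ← Finset.sum_sub_distrib, ← Finset.sum_sub_distrib]
    refine Finset.sum_congr rfl fun j _ => ?_
    rw [der_mul, der_mul]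
    ring
  funext k
  refine (key w x k).trans (Eq.trans ?_ (key x w k).symm)
  refine Finset.sum_congr rfl fun i _ => Finset.sum_congr rfl fun j _ => ?_
  congr 1
  have h := der_comm hF he w x (qc F i j k)
  have hsub : der hF he (nab hF he w x - nab hF he x w) (qc F i j k) =
      der hF he (nab hF he w x) (qc F i j k) - der hF he (nab hF he x w) (qc F i j k) := by
    have h := der_add_left hF he (nab hF he w x - nab hF he x w) (nab hF he x w) (qc F i j k)
    rw [sub_add_cancel] at h
    rw [h]
    ring
  rw [hsub] at h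
  linear_combination h

end Vale.Agent.P269.G2.H302.M23
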