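import Vale.Agent.P269.G2.Model

/-!
# [M5] covariant derivative of operators on the full small phase space
-/

namespace Vale.Agent.P269.G2.H302.M5

open Vale.Agent.P269.CI Vale.Agent.P269.G2

variable {X : CompleteIntersection} {F : ℕ → ℕ → List (Ins X) → ℂ}

variable (hF : IsGW X F) (he : Even X.dim)

/-! ### auxiliary rules -/

theorem der_cb' (x : AM hF he) (c : ℂ) : der hF he x (cb (nx X) c) = 0 := by
  refine Finset.sum_eq_zero fun i _ => ?_
  have h : pd i (cb (nx X) c) = 0 := by
    unfold pd cb
    exact MvPowerSeries.pderiv_C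
  rw [h, mul_zero]

theorem der_zero (x : AM hF he) : der hF he x 0 = 0 := by
  have h := der_add hF he x 0 0
  rw [add_zero] at h
  exact left_eq_add.1 h

theorem der_one (x : AM hF he) : der hF he x 1 = 0 := by
  have h := der_mul hF he x 1 1
  rw [one_mul, mul_one, one_mul] at h
  exact left_eq_add.1 h

/-- `der x` as an additive homomorphism -/
noncomputable def derHom (x : AM hF he) : RM X →+ RM X where
  toFun := der hF he x
  map_zero' := der_zero hF he x
  map_add' := der_add hF he x

theorem der_sum {ι : Type*} (s : Finset ι) (f : ι → RM X) (x : AM hF he) :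
    der hF he x (∑ i ∈ s, f i) = ∑ i ∈ s, der hF he x (f i) :=
  map_sum (derHom hF he x) f s

theorem nab_bas (x : AM hF he) (i : Ix X) :
    nab hF he x (QA.bas (consts hF he) i) = 0 := by
  funext k
  change der hF he x (QA.bas (consts hF he) i k) = 0
  rw [QA.bas_apply]
  split_ifs
  · exact der_one hF he x
  · exact der_zero hF he x

theorem mat_bas (x : AM hF he) (c b : Ix X) :
    QA.mat (consts hF he) x c b = (x * QA.bas (consts hF he) b : AM hF he) c := by
  rw [QA.mat_apply, QA.mul_def]
  refine Finset.sum_congr rfl fun i _ => ?_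
  rw [Finset.sum_eq_single b]
  · rw [QA.bas_apply, if_pos rfl, mul_one]
  · intro j _ hj
    rw [QA.bas_apply, if_neg hj, mul_zero, zero_mul]
  · intro h
    exact absurd (Finset.mem_univ b) h

theorem cb_sub (n : ℕ) (a b : ℂ) : cb n (a - b) = cb n a - cb n b := by
  unfold cb
  rw [map_sub, map_sub]

theorem cb_nat (n k : ℕ) : cb n (k : ℂ) = (k : RB n) := by
  unfold cb
  rw [map_natCast, map_natCast]

theorem dd_bas (b : Ix X) : dd hF he (QA.bas (consts hF he) b) =
    ((hp X b : ℕ) : RM X) • QA.bas (consts hF he) b := by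
  funext k
  change ((hp X k : ℕ) : RM X) * QA.bas (consts hF he) b k =
    ((hp X b : ℕ) : RM X) * QA.bas (consts hF he) b k
  rw [QA.bas_apply]
  by_cases h : k = b
  · rw [h]
  · rw [if_neg h, mul_zero, mul_zero]

/-! ### the rules -/

/-- **[M5]** -/
theorem nabO_add (x : AM hF he) (a b : OB X (nx X)) :
    nabO hF he x (a + b) = nabO hF he x a + nabO hF he x b := by
  refine Matrix.ext fun c d => ?_
  exact der_add hF he x (a c d) (b c d)

/-- **[M5]** -/
theorem nabO_mul (x : AM hF he) (a b : OB X (nx X)) :
    nabO hF he x (a * b) = nabO hF he x a * b + a * nabO hF he x b := by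
  refine Matrix.ext fun c d => ?_
  change der hF he x ((a * b) c d) = (nabO hF he x a * b) c d + (a * nabO hF he x b) c d
  rw [Matrix.mul_apply, Matrix.mul_apply, Matrix.mul_apply, der_sum, ← Finset.sum_add_distrib]
  refine Finset.sum_congr rfl fun k _ => ?_
  exact der_mul hF he x (a c k) (b k d)

/-- **[M5]** -/
theorem nabO_smul (x : AM hF he) (g : RM X) (a : OB X (nx X)) :
    nabO hF he x (g • a) = der hF he x g • a + g • nabO hF he x a := by
  refine Matrix.ext fun c d => ?_
  exact der_mul hF he x g (a c d)

/-- **[M5]** -/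
theorem nabO_mu (x : AM hF he) : nabO hF he x (muB X (nx X)) = 0 := by
  refine Matrix.ext fun c d => ?_
  change der hF he x (Matrix.diagonal (fun b => cb (nx X) (mu X b)) c d) = 0
  rw [Matrix.diagonal_apply]
  split_ifs
  · exact der_cb' hF he x _
  · exact der_zero hF he x

/-- **[M5]** -/
theorem nabO_U (x : AM hF he) : nabO hF he x (QA.mat _ (EM hF he)) =
    QA.mat _ x + QA.mat _ x * muB X (nx X) - muB X (nx X) * QA.mat _ x := by
  refine Matrix.ext fun c b => ?_
  have h := c4_E hF he x (QA.bas (consts hF he) b)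
  rw [nab_E, nab_bas, mul_zero, sub_zero, dd_bas] at h
  have h2 : nab hF he x (EM hF he * QA.bas (consts hF he) b) =
      x * QA.bas (consts hF he) b +
        ((hp X b : ℕ) : RM X) • (x * QA.bas (consts hF he) b) -
        dd hF he (x * QA.bas (consts hF he) b) := by
    rw [mul_smul_comm] at h
    linear_combination (exp := 1) h
  have h3 := congrFun h2 c
  have e1 : (nabO hF he x (QA.mat _ (EM hF he))) c b =
      (nab hF he x (EM hF he * QA.bas (consts hF he) b)) c := by
    change der hF he x (QA.mat (consts hF he) (EM hF he) c b) = _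
    rw [mat_bas]
    rfl
  rw [e1, h3]
  have e2 : (QA.mat (consts hF he) x + QA.mat (consts hF he) x * muB X (nx X) -
      muB X (nx X) * QA.mat (consts hF he) x) c b =
      QA.mat (consts hF he) x c b + QA.mat (consts hF he) x c b * cb (nx X) (mu X b) -
      cb (nx X) (mu X c) * QA.mat (consts hF he) x c b := by
    unfold muB
    rw [Matrix.sub_apply, Matrix.add_apply, Matrix.mul_diagonal, Matrix.diagonal_mul]
  rw [e2, mat_bas]
  change (x * QA.bas (consts hF he) b : AM hF he) c +
      ((hp X b : ℕ) : RM X) * (x * QA.bas (consts hF he) b : AM hF he) c -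
      ((hp X c : ℕ) : RM X) * (x * QA.bas (consts hF he) b : AM hF he) c = _
  unfold mu
  rw [cb_sub, cb_sub, cb_nat, cb_nat]
  ring

/-- **[M5]** -/
theorem c4O_symm (x y : AM hF he) :
    nabO hF he x (QA.mat _ y) - QA.mat _ (nab hF he x y) =
      nabO hF he y (QA.mat _ x) - QA.mat _ (nab hF he y x) := by
  refine Matrix.ext fun c b => ?_
  have h := c4_symm hF he x y (QA.bas (consts hF he) b)
  rw [nab_bas, nab_bas, mul_zero, mul_zero, sub_zero, sub_zero] at h
  have h3 := congrFun h c
  change der hF he x (QA.mat (consts hF he) y c b) -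
      QA.mat (consts hF he) (nab hF he x y) c b =
    der hF he y (QA.mat (consts hF he) x c b) - QA.mat (consts hF he) (nab hF he y x) c b
  rw [mat_bas, mat_bas, mat_bas, mat_bas]
  exact h3

/-- **[M5]** -/
theorem str_comm (a b : OB X (nx X)) : strB X (nx X) (a * b) = strB X (nx X) (b * a) :=
  Matrix.trace_mul_comm a b

/-- **[M5]** -/
theorem der_str (x : AM hF he) (a : OB X (nx X)) :
    der hF he x (strB X (nx X) a) = strB X (nx X) (nabO hF he x a) := by
  change der hF he x (∑ c, a c c) = ∑ c, der hF he x (a c c)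
  exact der_sum hF he _ _ x

end Vale.Agent.P269.G2.H302.M5
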